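import Mathlib

/-! Linear independence of iterated `q`-sums over polynomial coefficients. -/

namespace Vale.Agent.P314

open Polynomial

variable {K : Type*} [Field K]

/-- The dilation `p(t) ↦ p(qt)`. -/
noncomputable def dil (q : K) : K[X] →+* K[X] := compRingHom (C q * X)

lemma dil_eval (q x : K) (p : K[X]) : (dil q p).eval x = p.eval (q * x) := by
  simp [dil, eval_comp]

lemma dil_coeff (q : K) (p : K[X]) (m : ℕ) : (dil q p).coeff m = p.coeff m * q ^ m :=
  comp_C_mul_X_coeff

lemma dil_C (q a : K) : dil q (C a) = C a := by simp [dil]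

lemma dil_natDegree {q : K} (hq : q ≠ 0) (p : K[X]) : (dil q p).natDegree = p.natDegree := by
  have : (dil q p).support = p.support := by
    ext m
    simp [dil_coeff, hq]
  rw [natDegree, natDegree, degree, degree, this]

lemma dil_leadingCoeff {q : K} (hq : q ≠ 0) (p : K[X]) :
    (dil q p).leadingCoeff = p.leadingCoeff * q ^ p.natDegree := by
  rw [leadingCoeff, dil_natDegree hq, dil_coeff, leadingCoeff]

lemma dil_ne_zero {q : K} (hq : q ≠ 0) {p : K[X]} (hp : p ≠ 0) : dil q p ≠ 0 := by
  rw [← leadingCoeff_ne_zero, dil_leadingCoeff hq]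
  exact mul_ne_zero (leadingCoeff_ne_zero.2 hp) (pow_ne_zero _ hq)

lemma pow_inj {q : K} (hq0 : q ≠ 0) (hq : ∀ m, 0 < m → q ^ m ≠ 1) :
    Function.Injective fun m : ℕ => q ^ m := by
  have key : ∀ a b : ℕ, a < b → q ^ a ≠ q ^ b := by
    intro a b hab h
    obtain ⟨m, rfl⟩ := Nat.exists_eq_add_of_lt hab
    apply hq (m + 1) (by omega)
    rw [add_assoc, pow_add] at h
    exact (mul_left_cancel₀ (pow_ne_zero a hq0) (by rw [mul_one]; exact h)).symm
  intro a b h
  rcases lt_trichotomy a b with h' | h' | h'
  · exact absurd h (key a b h')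
  · exact h'
  · exact absurd h.symm (key b a h')

lemma lem1 {q : K} (hq0 : q ≠ 0) (hq : ∀ m, 0 < m → q ^ m ≠ 1) {b c : K[X]} (hb : b ≠ 0)
    (h : b * dil q c = dil q b * c) : ∃ α : K, c = C α * b := by
  have hl := leadingCoeff_ne_zero.2 hb
  refine ⟨c.coeff b.natDegree / b.leadingCoeff, ?_⟩
  set α := c.coeff b.natDegree / b.leadingCoeff with hα
  by_contra hne
  have hne' : c - C α * b ≠ 0 := sub_ne_zero.2 hne
  have h1 : b * dil q (c - C α * b) = dil q b * (c - C α * b) := by
    rw [map_sub, map_mul, dil_C]
    linear_combination h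
  have h2 := congrArg leadingCoeff h1
  rw [leadingCoeff_mul, leadingCoeff_mul, dil_leadingCoeff hq0, dil_leadingCoeff hq0] at h2
  have hl' := leadingCoeff_ne_zero.2 hne'
  have h3 : q ^ (c - C α * b).natDegree = q ^ b.natDegree :=
    mul_left_cancel₀ (mul_ne_zero hl hl') (by linear_combination h2)
  have h4 := pow_inj hq0 hq h3
  apply hl'
  rw [leadingCoeff, h4, coeff_sub, coeff_C_mul, hα, ← leadingCoeff]
  field_simp
  ring

lemma orbit_zero {q z : K} (hq0 : q ≠ 0) (hq : ∀ m, 0 < m → q ^ m ≠ 1) (hz : z ≠ 0) {b : K[X]}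
    (h : ∀ m : ℕ, b.eval (q ^ m * z) = 0) : b = 0 := by
  refine eq_zero_of_infinite_isRoot b (Set.infinite_of_injective_forall_mem
    (f := fun m : ℕ => q ^ m * z) (fun a b hab => pow_inj hq0 hq (mul_right_cancel₀ hz hab)) h)

lemma lem2 [IsAlgClosed K] {q : K} (hq0 : q ≠ 0) (hq : ∀ m, 0 < m → q ^ m ≠ 1) {ν : ℕ}
    (hν : 0 < ν) {a b β : K[X]} (hb : b ≠ 0) (hβ : β.degree < ν)
    (h : (1 - X ^ ν) * (b * dil q a - dil q b * a) = -(b * dil q b * β)) : β = 0 := by
  classical
  obtain ⟨a', b', ha', hb', hu⟩ := extract_gcd a b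
  have hco : IsCoprime a' b' := (gcd_isUnit_iff _ _).1 hu
  generalize gcd a b = g at ha' hb'
  subst ha' hb'
  have hg : g ≠ 0 := left_ne_zero_of_mul hb
  have hb0 : b' ≠ 0 := right_ne_zero_of_mul hb
  have h' : (1 - X ^ ν) * (b' * dil q a' - dil q b' * a') = -(b' * dil q b' * β) := by
    refine mul_left_cancel₀ (mul_ne_zero hg (dil_ne_zero hq0 hg)) ?_
    simp only [map_mul] at h
    linear_combination h
  have hev : ∀ z : K, (1 - z ^ ν) * (b'.eval z * a'.eval (q * z) - b'.eval (q * z) * a'.eval z) =
      -(b'.eval z * b'.eval (q * z) * β.eval z) := by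
    intro z
    have := congrArg (eval z) h'
    simpa [dil_eval] using this
  have hnc : ∀ z : K, b'.eval z = 0 → a'.eval z ≠ 0 := by
    intro z h1 h2
    obtain ⟨u, v, huv⟩ := hco
    have := congrArg (eval z) huv
    simp [h1, h2] at this
  have hup : ∀ z : K, b'.eval z = 0 → z ^ ν ≠ 1 → b'.eval (q * z) = 0 := by
    intro z h1 h2
    have h3 := hev z
    rw [h1] at h3
    have h4 : (1 - z ^ ν) * (b'.eval (q * z) * a'.eval z) = 0 := by linear_combination -h3
    have h5 := (mul_eq_zero.1 h4).resolve_left (sub_ne_zero.2 h2.symm)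
    exact (mul_eq_zero.1 h5).resolve_right (hnc z h1)
  have hdown : ∀ z : K, b'.eval (q * z) = 0 → z ^ ν ≠ 1 → b'.eval z = 0 := by
    intro z h1 h2
    have h3 := hev z
    rw [h1] at h3
    have h4 : (1 - z ^ ν) * (b'.eval z * a'.eval (q * z)) = 0 := by linear_combination h3
    have h5 := (mul_eq_zero.1 h4).resolve_left (sub_ne_zero.2 h2.symm)
    exact (mul_eq_zero.1 h5).resolve_right (hnc _ h1)
  have hqi : ∀ m, 0 < m → q⁻¹ ^ m ≠ 1 := fun m hm h1 => hq m hm (by
    rw [inv_pow, inv_eq_one] at h1; exact h1)
  have hz0 : ∀ z : K, z ^ ν = 1 → z ≠ 0 := by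
    rintro z h1 rfl
    rw [zero_pow hν.ne'] at h1
    exact zero_ne_one h1
  have hnr : ∀ (r z : K) (m : ℕ), (∀ m, 0 < m → r ^ m ≠ 1) → z ^ ν = 1 →
      (r ^ (m + 1) * z) ^ ν ≠ 1 := by
    intro r z m hr h1
    rw [mul_pow, h1, mul_one, ← pow_mul]
    exact hr _ (by positivity)
  have c1 : IsCoprime (1 - X ^ ν : K[X]) b' := by
    rw [isCoprime_iff_aeval_ne_zero_of_isAlgClosed K K]
    intro z
    by_contra hcon
    push Not at hcon
    obtain ⟨h1, h2⟩ := hcon
    have h1' : z ^ ν = 1 := by
      simp only [map_sub, map_one, map_pow, aeval_X] at h1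
      linear_combination -h1
    refine hb0 (orbit_zero (inv_ne_zero hq0) hqi (hz0 z h1') fun m => ?_)
    induction m with
    | zero => simpa using h2
    | succ m ih =>
      refine hdown _ ?_ (hnr _ _ _ hqi h1')
      rw [← ih]
      congr 1
      rw [pow_succ]
      field_simp
  have c2 : IsCoprime (1 - X ^ ν : K[X]) (dil q b') := by
    rw [isCoprime_iff_aeval_ne_zero_of_isAlgClosed K K]
    intro z
    by_contra hcon
    push Not at hcon
    obtain ⟨h1, h2⟩ := hcon
    have h1' : z ^ ν = 1 := by
      simp only [map_sub, map_one, map_pow, aeval_X] at h1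
      linear_combination -h1
    refine hb0 (orbit_zero hq0 hq (mul_ne_zero hq0 (hz0 z h1')) fun m => ?_)
    induction m with
    | zero => simpa [dil_eval] using h2
    | succ m ih =>
      have e : q ^ m * (q * z) = q ^ (m + 1) * z := by ring
      have := hup _ ih (by rw [e]; exact hnr _ _ _ hq h1')
      rw [← this]
      congr 1
      ring
  have hdvd : (1 - X ^ ν : K[X]) ∣ b' * dil q b' * β := by
    rw [← dvd_neg, ← h']
    exact dvd_mul_right _ _
  have hdvd' : (1 - X ^ ν : K[X]) ∣ β := (c1.mul_right c2).dvd_of_dvd_mul_left hdvd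
  refine eq_zero_of_dvd_of_degree_lt hdvd' ?_
  have : (1 - X ^ ν : K[X]).degree = ν := by
    rw [← degree_neg, neg_sub]
    simpa using degree_X_pow_sub_C hν (1 : K)
  rwa [this]

variable {n : ℕ}

/-- Pairing of polynomial coefficients, evaluated at `x`, with the values `g`. -/
noncomputable def ev (x : K) (g : List (Fin n) → K) : (List (Fin n) →₀ K[X]) →+ K :=
  Finsupp.liftAddHom fun w => (AddMonoidHom.mulRight (g w)).comp (evalRingHom x).toAddMonoidHom

lemma ev_single (x : K) (g : List (Fin n) → K) (w) (p : K[X]) :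
    ev x g (Finsupp.single w p) = p.eval x * g w := by
  simp [ev]

lemma ev_smul (x : K) (g : List (Fin n) → K) (p : K[X]) (c : List (Fin n) →₀ K[X]) :
    ev x g (p • c) = p.eval x * ev x g c := by
  induction c using Finsupp.induction_linear with
  | zero => simp
  | add c c' h h' => rw [smul_add, map_add, map_add, h, h', mul_add]
  | single w p' => rw [Finsupp.smul_single, ev_single, ev_single, smul_eq_mul, eval_mul, mul_assoc]

noncomputable def sh (q : K) : (List (Fin n) →₀ K[X]) →+ (List (Fin n) →₀ K[X]) :=
  Finsupp.mapRange.addMonoidHom (dil q).toAddMonoidHom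

noncomputable def tl (i : Fin n) : (List (Fin n) →₀ K[X]) →+ (List (Fin n) →₀ K[X]) :=
  Finsupp.comapDomain.addMonoidHom (f := List.cons i) List.cons_injective

lemma sh_apply (q : K) (c : List (Fin n) →₀ K[X]) (w) : sh q c w = dil q (c w) := rfl

lemma tl_apply (i : Fin n) (c : List (Fin n) →₀ K[X]) (w) : tl i c w = c (i :: w) := rfl

lemma ev_shift (q x : K) (ν : ℕ) (g g' : List (Fin n) → K) (h0 : g' [] = (1 - x ^ ν) * g [])
    (h1 : ∀ i w, g' (i :: w) = (1 - x ^ ν) * g (i :: w) + x ^ (i : ℕ) * g w)
    (c : List (Fin n) →₀ K[X]) :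
    ev (q * x) g' c = ev x g ((1 - X ^ ν : K[X]) • sh q c +
      ∑ i : Fin n, (X ^ (i : ℕ) : K[X]) • sh q (tl i c)) := by
  classical
  simp only [map_add, map_sum, ev_smul]
  induction c using Finsupp.induction_linear with
  | zero => simp
  | add c c' h h' =>
    simp only [map_add, h, h', mul_add, Finset.sum_add_distrib]
    ring
  | single w p =>
    have e1 : ∀ v (p : K[X]), sh q (Finsupp.single v p) = Finsupp.single (v : List (Fin n))
        (dil q p) := fun v p => Finsupp.mapRange_single (hf := map_zero _)
    cases w with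
    | nil =>
      have e2 : ∀ i : Fin n, tl i (Finsupp.single [] p) = 0 := by
        intro i
        ext v
        simp [tl_apply]
      simp only [e1, e2, ev_single, dil_eval, h0, map_zero, mul_zero, Finset.sum_const_zero]
      simp
      ring
    | cons j w =>
      have e2 : ∀ i : Fin n, tl i (Finsupp.single (j :: w) p) =
          if j = i then Finsupp.single w p else 0 := by
        intro i
        ext v
        by_cases h : j = i <;> simp [tl_apply, h, Finsupp.single_apply]
      simp only [e2, apply_ite (sh q), apply_ite (ev x g), e1, ev_single, dil_eval, h1, map_zero,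
        mul_ite, mul_zero, Finset.sum_ite_eq, Finset.mem_univ, if_true]
      simp
      ring

theorem free [IsAlgClosed K] {q : K} (hq0 : q ≠ 0) (hq : ∀ m, 0 < m → q ^ m ≠ 1) {ν : ℕ}
    (hν : n < ν) (G : ℕ → List (Fin n) → K) (hG : ∀ k, G k [] ≠ 0)
    (h0 : ∀ k, G (k + 1) [] = (1 - (q ^ (k + 1)) ^ ν) * G k [])
    (h1 : ∀ k i w, G (k + 1) (i :: w) =
      (1 - (q ^ (k + 1)) ^ ν) * G k (i :: w) + (q ^ (k + 1)) ^ (i : ℕ) * G k w)
    (k₀ : ℕ) (c : List (Fin n) →₀ K[X]) (hc : ∀ k, k₀ ≤ k → ev (q ^ (k + 1)) (G k) c = 0) :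
    c = 0 := by
  classical
  have hD : (1 - X ^ ν : K[X]) ≠ 0 := by
    intro h
    have := congrArg (eval 0) h
    simp [zero_pow (show ν ≠ 0 by omega)] at this
  have main : ∀ ℓ r : ℕ, ∀ c : List (Fin n) →₀ K[X],
      (∀ k, k₀ ≤ k → ev (q ^ (k + 1)) (G k) c = 0) → (∀ w, ℓ < w.length → c w = 0) →
      (c.support.filter fun w => w.length = ℓ).card ≤ r → c = 0 := by
    intro ℓ
    induction ℓ with
    | zero =>
      intro r c hc hl _
      have e : c = Finsupp.single [] (c []) := by
        ext1 w
        cases w with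
        | nil => simp
        | cons i w => simp [hl (i :: w) (by simp)]
      have : c [] = 0 := by
        refine orbit_zero hq0 hq (pow_ne_zero (k₀ + 1) hq0) fun m => ?_
        have := hc (k₀ + m) (by omega)
        rw [e, ev_single] at this
        rw [← (mul_eq_zero.1 this).resolve_right (hG _)]
        congr 1
        ring
      rw [e, this, Finsupp.single_zero]
    | succ ℓ ihℓ =>
      intro r
      induction r with
      | zero =>
        intro c hc hl hr
        refine ihℓ _ c hc (fun w hw => ?_) le_rfl
        by_cases hw' : w.length = ℓ + 1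
        · by_contra hne
          have : w ∈ c.support.filter fun w => w.length = ℓ + 1 := by simp [hne, hw']
          rw [Finset.card_eq_zero.1 (Nat.le_zero.1 hr)] at this
          simp at this
        · exact hl w (by omega)
      | succ r ihr =>
        intro c hc hl hr
        by_cases hr' : (c.support.filter fun w => w.length = ℓ + 1).card ≤ r
        · exact ihr c hc hl hr'
        exfalso
        obtain ⟨w₀, hw₀⟩ : (c.support.filter fun w => w.length = ℓ + 1).Nonempty :=
          Finset.card_pos.1 (by omega)
        have hw₀' := hw₀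
        rw [Finset.mem_filter, Finsupp.mem_support_iff] at hw₀'
        obtain ⟨hb, hlen⟩ := hw₀'
        set b := c w₀ with hbdef
        let c' : List (Fin n) →₀ K[X] := b • ((1 - X ^ ν : K[X]) • sh q c +
          ∑ i : Fin n, (X ^ (i : ℕ) : K[X]) • sh q (tl i c)) - (dil q b * (1 - X ^ ν)) • c
        have hc' : ∀ w, c' w = (1 - X ^ ν) * (b * dil q (c w) - dil q b * c w) +
            b * ∑ i : Fin n, X ^ (i : ℕ) * dil q (c (i :: w)) := by
          intro w
          simp only [c', Finsupp.coe_sub, Finsupp.coe_smul, Finsupp.coe_add, Pi.sub_apply,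
            Pi.smul_apply, Pi.add_apply, Finsupp.finset_sum_apply, sh_apply, tl_apply, smul_eq_mul]
          ring
        have htop : ∀ w, ℓ + 1 ≤ w.length →
            c' w = (1 - X ^ ν) * (b * dil q (c w) - dil q b * c w) := by
          intro w hw
          rw [hc', Finset.sum_eq_zero, mul_zero, add_zero]
          intro i _
          rw [hl _ (by simp; omega), map_zero, mul_zero]
        have hz : c' = 0 := by
          refine ihr c' (fun k hk => ?_) (fun w hw => ?_) ?_
          · simp only [c']
            rw [map_sub, ev_smul, ← ev_shift q _ ν (G k) (G (k + 1)) (h0 k) (h1 k), ev_smul,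
              hc k hk, ← pow_succ', hc (k + 1) (by omega)]
            simp
          · rw [htop w (by omega), hl w hw]
            simp
          · have : (c'.support.filter fun w => w.length = ℓ + 1) ⊆
                (c.support.filter fun w => w.length = ℓ + 1).erase w₀ := by
              intro w hw
              rw [Finset.mem_filter, Finsupp.mem_support_iff] at hw
              obtain ⟨hw1, hw2⟩ := hw
              rw [htop w hw2.ge] at hw1
              rw [Finset.mem_erase, Finset.mem_filter, Finsupp.mem_support_iff]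
              refine ⟨?_, ?_, hw2⟩
              · rintro rfl
                apply hw1
                rw [← hbdef]
                ring
              · intro h
                apply hw1
                simp [h]
            have := Finset.card_le_card this
            rw [Finset.card_erase_of_mem hw₀] at this
            omega
        obtain ⟨i₀, w₁, rfl⟩ : ∃ i w, w₀ = i :: w := by
          cases w₀ with
          | nil => simp at hlen
          | cons i w => exact ⟨i, w, rfl⟩
        have hα : ∀ i : Fin n, ∃ α : K, c (i :: w₁) = C α * b := by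
          intro i
          refine lem1 hq0 hq hb ?_
          have := htop (i :: w₁) (by simpa using hlen.ge)
          rw [hz] at this
          exact sub_eq_zero.1 ((mul_eq_zero.1 this.symm).resolve_left hD)
        choose α hα using hα
        have hβ : (∑ i : Fin n, C (α i) * X ^ (i : ℕ) : K[X]) = 0 := by
          refine lem2 hq0 hq (ν := ν) (by omega) (a := c w₁) hb ?_ ?_
          · refine (degree_sum_fin_lt α).trans ?_
            exact_mod_cast hν
          · have := hc' w₁
            rw [hz] at this
            simp only [hα, map_mul, dil_C, Finsupp.coe_zero, Pi.zero_apply] at this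
            rw [Finset.mul_sum] at this ⊢
            rw [eq_neg_iff_add_eq_zero, this]
            congr 1
            exact Finset.sum_congr rfl fun i _ => by ring
        have h5 := congrArg (fun p => coeff p (i₀ : ℕ)) hβ
        simp only [finset_sum_coeff, coeff_C_mul_X_pow, coeff_zero, Fin.val_inj,
          Finset.sum_ite_eq, Finset.mem_univ, if_true] at h5
        apply hb
        have := hα i₀
        rw [h5, C_0, zero_mul] at this
        exact this
  exact main (c.support.sup List.length) _ c hc (fun w hw => by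
    by_contra hne
    have := Finset.le_sup (f := List.length) (Finsupp.mem_support_iff.2 hne)
    omega) le_rfl

end Vale.Agent.P314
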