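import Mathlib

/-! A zero estimate for solutions of linear `q`-difference systems. -/

namespace Vale.Agent.P314

open Polynomial Module

variable {K : Type*} [Field K] {w : ℕ}

lemma natDegree_det_le {κ : Type} [Fintype κ] [DecidableEq κ] (P : Matrix κ κ K[X]) (δ : ℕ)
    (h : ∀ i j, (P i j).natDegree ≤ δ) : P.det.natDegree ≤ Fintype.card κ * δ := by
  rw [Matrix.det_apply]
  refine natDegree_sum_le_of_forall_le _ _ fun σ _ => ?_
  refine (natDegree_smul_le _ _).trans ((natDegree_prod_le _ _).trans ?_)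
  refine (Finset.sum_le_sum fun i _ => h (σ i) i).trans ?_
  simp

/-- Span of the first `ρ` polynomial rows at the point `x`. -/
def rowSpan (U : ℕ → Fin w → K[X]) (ρ : ℕ) (x : K) : Submodule K (Fin w → K) :=
  Submodule.span K (Set.range fun m : Fin ρ => fun a => (U m a).eval x)

lemma rowSpan_mem (U : ℕ → Fin w → K[X]) {ρ m : ℕ} (h : m < ρ) (x : K) :
    (fun a => (U m a).eval x) ∈ rowSpan U ρ x :=
  Submodule.subset_span ⟨⟨m, h⟩, rfl⟩

lemma rowSpan_le (U : ℕ → Fin w → K[X]) {ρ : ℕ} (x : K) (S : Submodule K (Fin w → K))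
    (h : ∀ m < ρ, (fun a => (U m a).eval x) ∈ S) : rowSpan U ρ x ≤ S := by
  refine Submodule.span_le.2 ?_
  rintro _ ⟨m, rfl⟩
  exact h m m.2

lemma rowSpan_mono (U : ℕ → Fin w → K[X]) {ρ ρ' : ℕ} (h : ρ ≤ ρ') (x : K) :
    rowSpan U ρ x ≤ rowSpan U ρ' x :=
  rowSpan_le U x _ fun _ hm => rowSpan_mem U (by omega) x

lemma semicont (t : ℕ → K) (ht : Function.Injective t) (U : ℕ → Fin w → K[X]) (ρ δ : ℕ)
    (hU : ∀ m < ρ, ∀ a, (U m a).natDegree ≤ δ) (x₀ : K) :
    ∃ B : Finset ℕ, B.card ≤ w * δ ∧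
      ∀ k ∉ B, finrank K (rowSpan U ρ x₀) ≤ finrank K (rowSpan U ρ (t k)) := by
  classical
  obtain ⟨κ, a, ha, hs, hl⟩ :=
    exists_linearIndependent' K (fun m : Fin ρ => fun a => (U m a).eval x₀)
  haveI : Finite κ := Finite.of_injective a ha
  haveI : Fintype κ := Fintype.ofFinite κ
  have hc : finrank K (rowSpan U ρ x₀) = Fintype.card κ := by
    rw [rowSpan, ← hs, finrank_span_eq_card hl]
  have hw : Fintype.card κ ≤ w := by
    simpa using hl.fintype_card_le_finrank
  obtain ⟨g, hg⟩ := LinearMap.exists_leftInverse_of_injective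
    (Fintype.linearCombination K ((fun m : Fin ρ => fun a => (U m a).eval x₀) ∘ a))
    (LinearMap.ker_eq_bot.2 (linearIndependent_iff_injective_fintypeLinearCombination.1 hl))
  let P : Matrix κ κ K[X] := Matrix.of fun i j => ∑ b, U (a i) b * C (g (Pi.single b 1) j)
  have hP : ∀ x : K, (evalRingHom x).mapMatrix P =
      Matrix.of fun i => g (fun b => (U (a i) b).eval x) := by
    intro x
    ext i j
    rw [Matrix.of_apply, LinearMap.pi_apply_eq_sum_univ]
    simp only [P, RingHom.mapMatrix_apply, Matrix.map_apply, Matrix.of_apply, coe_evalRingHom,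
      eval_finset_sum, eval_mul, eval_C, Finset.sum_apply, Pi.smul_apply, smul_eq_mul]
    refine Finset.sum_congr rfl fun b _ => ?_
    have : (Pi.single b 1 : Fin w → K) = fun c => if b = c then 1 else 0 := by
      ext c
      simp [Pi.single_apply, eq_comm]
    rw [this]
  have hdet : ∀ x : K, P.det.eval x = (Matrix.of fun i => g (fun b => (U (a i) b).eval x)).det := by
    intro x
    rw [← hP, ← RingHom.map_det]
    rfl
  have h0 : P.det ≠ 0 := by
    intro h
    have h1 := hdet x₀
    have h2 : (Matrix.of fun i => g (fun b => (U (a i) b).eval x₀)) = 1 := by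
      ext i j
      have := LinearMap.congr_fun hg (Pi.single i 1)
      simp only [LinearMap.comp_apply, Fintype.linearCombination_apply_single, one_smul,
        Function.comp_apply, LinearMap.id_apply] at this
      rw [Matrix.of_apply, this, Matrix.one_apply, Pi.single_apply]
      simp [eq_comm]
    rw [h, h2] at h1
    simp at h1
  have hd : P.det.natDegree ≤ w * δ := by
    refine (natDegree_det_le P δ fun i j => ?_).trans (Nat.mul_le_mul_right _ hw)
    simp only [P, Matrix.of_apply]
    refine natDegree_sum_le_of_forall_le _ _ fun b _ => ?_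
    exact (natDegree_mul_C_le _ _).trans (hU _ (a i).2 b)
  refine ⟨P.det.roots.toFinset.preimage t ht.injOn, ?_, fun k hk => ?_⟩
  · refine le_trans ?_ ((Multiset.toFinset_card_le _).trans ((card_roots' _).trans hd))
    exact Finset.card_le_card_of_injOn t (fun k hk => by simpa using hk) ht.injOn
  · have h1 : P.det.eval (t k) ≠ 0 := by
      simpa [h0] using hk
    rw [hdet] at h1
    have h2 := Matrix.linearIndependent_rows_of_det_ne_zero h1
    have h3 : LinearIndependent K (fun i : κ => fun b => (U (a i) b).eval (t k)) :=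
      LinearIndependent.of_comp g h2
    rw [hc, ← finrank_span_eq_card h3]
    refine Submodule.finrank_mono (Submodule.span_le.2 ?_)
    rintro _ ⟨i, rfl⟩
    exact rowSpan_mem U (a i).2 _

/-- The rows `u M(q^(m-1) t) ⋯ M(t)`. -/
noncomputable def rows (q : K) (M : Matrix (Fin w) (Fin w) K[X]) (u : Fin w → K) :
    ℕ → Fin w → K[X]
  | 0 => fun a => C (u a)
  | m + 1 => fun b => ∑ a, (rows q M u m a).comp (C q * X) * M a b

lemma rows_deg (q : K) (M : Matrix (Fin w) (Fin w) K[X]) (u : Fin w → K) (δ : ℕ)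
    (hM : ∀ a b, (M a b).natDegree ≤ δ) : ∀ m a, (rows q M u m a).natDegree ≤ δ * m
  | 0, a => by simp [rows]
  | m + 1, b => by
    refine natDegree_sum_le_of_forall_le _ _ fun a _ => natDegree_mul_le.trans ?_
    have h1 := rows_deg q M u δ hM m a
    have h2 : ((rows q M u m a).comp (C q * X)).natDegree ≤ (rows q M u m a).natDegree := by
      refine natDegree_comp_le.trans ?_
      have : (C q * X : K[X]).natDegree ≤ 1 := by compute_degree
      nlinarith
    have h3 := hM a b
    nlinarith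

theorem zero_estimate (q : K) (t : ℕ → K) (ht : Function.Injective t) (hq : ∀ k, t (k + 1) = q * t k)
    (M : Matrix (Fin w) (Fin w) K[X]) (δ : ℕ) (hM : ∀ a b, (M a b).natDegree ≤ δ)
    (Y : ℕ → Fin w → K) (hY : ∀ k a, Y (k + 1) a = ∑ b, (M a b).eval (t k) * Y k b)
    (u : Fin w → K) (h0 : ∀ k ≤ δ * w ^ 2 + w, ∑ a, u a * Y k a = 0) :
    ∃ k₀, ∀ k, k₀ ≤ k → ∑ a, u a * Y k a = 0 := by
  classical
  set U := rows q M u with hU
  have hstep : ∀ m k b, (U (m + 1) b).eval (t k) =
      ∑ a, (U m a).eval (t (k + 1)) * (M a b).eval (t k) := by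
    intro m k b
    simp [hU, rows, eval_finset_sum, eval_comp, hq]
  have hval : ∀ m k, ∑ a, u a * Y (k + m) a = ∑ a, (U m a).eval (t k) * Y k a := by
    intro m
    induction m with
    | zero => intro k; simp [hU, rows]
    | succ m ih =>
      intro k
      rw [show k + (m + 1) = (k + 1) + m by ring, ih]
      simp only [hY, hstep, Finset.mul_sum, Finset.sum_mul]
      rw [Finset.sum_comm]
      simp only [mul_assoc]
  -- generic rank
  have hex : ∀ ρ, ∃ k₀, ∀ k, finrank K (rowSpan U ρ (t k)) ≤ finrank K (rowSpan U ρ (t k₀)) := by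
    intro ρ
    have hb : BddAbove (Set.range fun k => finrank K (rowSpan U ρ (t k))) :=
      ⟨w, by rintro _ ⟨k, rfl⟩; simpa using Submodule.finrank_le (rowSpan U ρ (t k))⟩
    obtain ⟨k₀, hk₀⟩ := Nat.sSup_mem (Set.range_nonempty _) hb
    exact ⟨k₀, fun k => by
      have := le_csSup hb ⟨k, rfl⟩
      rw [← hk₀] at this
      exact this⟩
  choose p hp using hex
  let d : ℕ → ℕ := fun ρ => finrank K (rowSpan U ρ (t (p ρ)))
  have hdw : ∀ ρ, d ρ ≤ w := fun ρ => by simpa using Submodule.finrank_le (rowSpan U ρ (t (p ρ)))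
  have hgood : ∀ ρ, ∃ B : Finset ℕ, B.card ≤ w * (δ * ρ) ∧
      ∀ k ∉ B, d ρ ≤ finrank K (rowSpan U ρ (t k)) := fun ρ =>
    semicont t ht U ρ (δ * ρ) (fun m hm a => (rows_deg q M u δ hM m a).trans
      (Nat.mul_le_mul_left _ hm.le)) _
  have hnext : ∀ ρ, d (ρ + 1) ≤ d ρ → d (ρ + 2) ≤ d (ρ + 1) := by
    intro ρ h
    obtain ⟨B, -, hB⟩ := hgood ρ
    obtain ⟨B', -, hB'⟩ := hgood (ρ + 2)
    obtain ⟨k, hk⟩ := Infinite.exists_notMem_finset (B.image (· - 1) ∪ B')
    have hk1 : k + 1 ∉ B := fun h' => hk (Finset.mem_union_left _ (Finset.mem_image.2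
      ⟨k + 1, h', by simp⟩))
    have hk2 : k ∉ B' := fun h' => hk (Finset.mem_union_right _ h')
    have e1 : rowSpan U ρ (t (k + 1)) = rowSpan U (ρ + 1) (t (k + 1)) :=
      Submodule.eq_of_le_of_finrank_le (rowSpan_mono U (by omega) _)
        ((hp _ _).trans (h.trans (hB _ hk1)))
    let L : (Fin w → K) →ₗ[K] (Fin w → K) := Matrix.vecMulLinear (M.map (eval (t k)))
    have hL : ∀ m, L (fun a => (U m a).eval (t (k + 1))) = fun b => (U (m + 1) b).eval (t k) := by
      intro m
      ext b
      rw [hstep]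
      simp [L, Matrix.vecMul, dotProduct]
    have e2 : rowSpan U ρ (t (k + 1)) ≤ (rowSpan U (ρ + 1) (t k)).comap L :=
      rowSpan_le U _ _ fun m hm => by
        rw [Submodule.mem_comap, hL]
        exact rowSpan_mem U (by omega) _
    have e3 : rowSpan U (ρ + 2) (t k) ≤ rowSpan U (ρ + 1) (t k) :=
      rowSpan_le U _ _ fun m hm => by
        by_cases h' : m < ρ + 1
        · exact rowSpan_mem U h' _
        · obtain rfl : m = ρ + 1 := by omega
          rw [← hL]
          exact e2 (e1 ▸ rowSpan_mem U (by omega) _)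
    exact (hB' k hk2).trans ((Submodule.finrank_mono e3).trans (hp _ _))
  obtain ⟨ρ, hρ, hd⟩ : ∃ ρ ≤ w, d (ρ + 1) ≤ d ρ := by
    by_contra hcon
    push Not at hcon
    have : ∀ ρ ≤ w + 1, ρ ≤ d ρ := by
      intro ρ
      induction ρ with
      | zero => intro _; omega
      | succ ρ ih =>
        intro h
        have := hcon ρ (by omega)
        have := ih (by omega)
        omega
    have := this (w + 1) le_rfl
    have := hdw (w + 1)
    omega
  have hall : ∀ j, d (ρ + j + 1) ≤ d (ρ + j) := by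
    intro j
    induction j with
    | zero => exact hd
    | succ j ih => exact hnext _ ih
  have hall' : ∀ j, d (ρ + j) ≤ d ρ := by
    intro j
    induction j with
    | zero => exact le_rfl
    | succ j ih => exact (hall j).trans ih
  obtain ⟨B, hBc, hB⟩ := hgood ρ
  obtain ⟨k₀, hk₀, hk₀B⟩ : ∃ k₀ ∈ Finset.range (δ * w ^ 2 + 1), k₀ ∉ B := by
    refine Finset.exists_mem_notMem_of_card_lt_card ?_
    have : w * (δ * ρ) ≤ δ * w ^ 2 := by
      calc w * (δ * ρ) ≤ w * (δ * w) := by gcongr
        _ = δ * w ^ 2 := by ring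
    simp only [Finset.card_range]
    omega
  rw [Finset.mem_range] at hk₀
  refine ⟨k₀, fun k hk => ?_⟩
  obtain ⟨m, rfl⟩ := Nat.exists_eq_add_of_le hk
  have e1 : rowSpan U ρ (t k₀) = rowSpan U (ρ + (m + 1)) (t k₀) :=
    Submodule.eq_of_le_of_finrank_le (rowSpan_mono U (by omega) _)
      ((hp _ _).trans ((hall' _).trans (hB _ hk₀B)))
  let L : (Fin w → K) →ₗ[K] K := Fintype.linearCombination K (Y k₀)
  have hL : ∀ j, L (fun a => (U j a).eval (t k₀)) = ∑ a, u a * Y (k₀ + j) a := by
    intro j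
    rw [hval]
    simp [L, Fintype.linearCombination_apply]
  have e2 : rowSpan U ρ (t k₀) ≤ LinearMap.ker L := rowSpan_le U _ _ fun j hj => by
    rw [LinearMap.mem_ker, hL]
    exact h0 _ (by omega)
  rw [← hL]
  exact e2 (e1 ▸ rowSpan_mem U (by omega) _)

end Vale.Agent.P314
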