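import Vale.Agent.P314.Defs
import Vale.Agent.P314.Zero
import Vale.Agent.P314.Free

/-! Left quotients in the free algebra and nonvanishing of the iterated sums. -/

namespace Vale.Agent.P314

open Polynomial FreeAlgebra Module

variable {F : Type*} [Field F] {n : ℕ}

/-- Constant term. -/
noncomputable def eps : FreeAlgebra F (Fin n) →ₐ[F] F := FreeAlgebra.lift F fun _ => 0

noncomputable def Phi (i : Fin n) :
    FreeAlgebra F (Fin n) →ₐ[F] Matrix (Fin 2) (Fin 2) (FreeAlgebra F (Fin n)) :=
  FreeAlgebra.lift F fun j => !![0, if i = j then 1 else 0; 0, ι F j]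

lemma Phi_entries (i : Fin n) (f : FreeAlgebra F (Fin n)) :
    Phi i f 0 0 = algebraMap F _ (eps f) ∧ Phi i f 1 0 = 0 ∧ Phi i f 1 1 = f := by
  induction f using FreeAlgebra.induction with
  | grade0 r => simp [Matrix.algebraMap_matrix_apply]
  | grade1 j => simp [Phi, eps]
  | mul a b ha hb => simp [Matrix.mul_apply, Fin.sum_univ_two, ha, hb]
  | add a b ha hb => simp [ha, hb]

/-- Left quotient by the variable `x_i`. -/
noncomputable def der (i : Fin n) : FreeAlgebra F (Fin n) →ₗ[F] FreeAlgebra F (Fin n) where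
  toFun f := Phi i f 0 1
  map_add' a b := by simp
  map_smul' r a := by simp

lemma der_algebraMap (i : Fin n) (r : F) : der i (algebraMap F (FreeAlgebra F (Fin n)) r) = 0 := by
  simp [der, Matrix.algebraMap_matrix_apply]

lemma der_one (i : Fin n) : der i (1 : FreeAlgebra F (Fin n)) = 0 := by
  simpa using der_algebraMap i (1 : F)

lemma der_ι (i j : Fin n) : der i (ι F j) = if i = j then 1 else 0 := by
  simp [der, Phi]

lemma eps_ι (j : Fin n) : eps (ι F j) = 0 := by simp [eps]

lemma der_mul (i : Fin n) (f g : FreeAlgebra F (Fin n)) :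
    der i (f * g) = eps f • der i g + der i f * g := by
  simp [der, Matrix.mul_apply, Fin.sum_univ_two, Phi_entries, Algebra.smul_def]

lemma decomp (f : FreeAlgebra F (Fin n)) :
    f = algebraMap F _ (eps f) + ∑ i, ι F i * der i f := by
  induction f using FreeAlgebra.induction with
  | grade0 r => simp [der_algebraMap]
  | grade1 j => simp [der_ι, eps_ι]
  | mul a b ha hb =>
    have e1 : a * b = eps a • b + ∑ i, ι F i * (der i a * b) := by
      conv_lhs => rw [ha]
      simp [add_mul, Finset.sum_mul, mul_assoc, Algebra.smul_def]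
    have e2 : eps a • b = algebraMap F _ (eps (a * b)) + ∑ i, ι F i * (eps a • der i b) := by
      conv_lhs => rw [hb]
      rw [smul_add, Finset.smul_sum, map_mul, map_mul, Algebra.smul_def]
      simp only [mul_smul_comm]
    conv_lhs => rw [e1, e2]
    simp only [der_mul, mul_add, Finset.sum_add_distrib, add_assoc]
  | add a b ha hb =>
    conv_lhs => rw [ha, hb]
    simp only [map_add, mul_add, Finset.sum_add_distrib]
    abel

lemma leaf_space (x : FreeAlgebra F (Fin n)) (hx : ∀ i, ∃ c : F, der i x = c • 1) :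
    ∃ V : Submodule F (FreeAlgebra F (Fin n)),
      Module.Finite F V ∧ finrank F V ≤ 2 ∧ x ∈ V ∧ ∀ i, ∀ v ∈ V, der i v ∈ V := by
  refine ⟨Submodule.span F (Set.range ![1, x]), Module.Finite.span_of_finite _ (Set.finite_range _),
    ?_, Submodule.subset_span ⟨1, rfl⟩, fun i v hv => ?_⟩
  · exact (finrank_range_le_card (R := F) ![1, x]).trans (by simp)
  · obtain ⟨c, rfl⟩ := (Submodule.mem_span_range_iff_exists_fun F).1 hv
    obtain ⟨c', hc'⟩ := hx i
    rw [Fin.sum_univ_two, map_add, map_smul, map_smul]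
    change c 0 • der i 1 + c 1 • der i x ∈ _
    rw [der_one, smul_zero, zero_add, hc']
    exact Submodule.smul_mem _ _ (Submodule.smul_mem _ _ (Submodule.subset_span ⟨0, rfl⟩))

lemma exists_space (φ : Formula F n) : ∃ V : Submodule F (FreeAlgebra F (Fin n)),
    Module.Finite F V ∧ finrank F V ≤ 2 * φ.size ∧ φ.poly ∈ V ∧ ∀ i, ∀ v ∈ V, der i v ∈ V := by
  induction φ with
  | var j =>
    refine leaf_space _ fun i => ⟨if i = j then 1 else 0, ?_⟩
    rw [Formula.poly, der_ι]
    split_ifs <;> simp
  | const a => exact leaf_space _ fun i => ⟨0, by rw [Formula.poly, der_algebraMap, zero_smul]⟩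
  | add φ ψ h1 h2 =>
    obtain ⟨V, f1, d1, m1, c1⟩ := h1
    obtain ⟨W, f2, d2, m2, c2⟩ := h2
    refine ⟨V ⊔ W, inferInstance, ?_, Submodule.add_mem_sup m1 m2, fun i v hv => ?_⟩
    · have := Submodule.finrank_add_le_finrank_add_finrank V W
      simp only [Formula.size]
      omega
    · obtain ⟨a, ha, b, hb, rfl⟩ := Submodule.mem_sup.1 hv
      rw [map_add]
      exact Submodule.add_mem_sup (c1 i a ha) (c2 i b hb)
  | mul φ ψ h1 h2 =>
    obtain ⟨V, f1, d1, m1, c1⟩ := h1
    obtain ⟨W, f2, d2, m2, c2⟩ := h2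
    refine ⟨V.map (LinearMap.mulRight F ψ.poly) ⊔ W, inferInstance, ?_,
      Submodule.mem_sup_left ⟨_, m1, rfl⟩, fun i v hv => ?_⟩
    · have := Submodule.finrank_add_le_finrank_add_finrank (V.map (LinearMap.mulRight F ψ.poly)) W
      have := Submodule.finrank_map_le (LinearMap.mulRight F ψ.poly) V
      simp only [Formula.size]
      omega
    · obtain ⟨_, ⟨a, ha, rfl⟩, b, hb, rfl⟩ := Submodule.mem_sup.1 hv
      rw [map_add, LinearMap.mulRight_apply, der_mul]
      exact add_mem (add_mem (Submodule.mem_sup_right (Submodule.smul_mem _ _ (c2 i _ m2)))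
        (Submodule.mem_sup_left ⟨_, c1 i a ha, rfl⟩)) (Submodule.mem_sup_right (c2 i b hb))

/-- The normalised iterated sums, as polynomials in `q`. -/
noncomputable def G (ν : ℕ) : ℕ → FreeAlgebra F (Fin n) →ₗ[F] F[X]
  | 0 => Algebra.linearMap F F[X] ∘ₗ eps.toLinearMap
  | k + 1 => (1 - (X ^ (k + 1)) ^ ν : F[X]) • G ν k +
      ∑ i : Fin n, ((X ^ (k + 1)) ^ (i : ℕ) : F[X]) • (G ν k ∘ₗ der i)

lemma G_zero (ν : ℕ) (f : FreeAlgebra F (Fin n)) : G ν 0 f = C (eps f) := rfl

lemma G_succ (ν k : ℕ) (f : FreeAlgebra F (Fin n)) : G ν (k + 1) f =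
    (1 - (X ^ (k + 1)) ^ ν) * G ν k f + ∑ i : Fin n, (X ^ (k + 1)) ^ (i : ℕ) * G ν k (der i f) := by
  simp [G, LinearMap.sum_apply]

lemma G_deg {ν : ℕ} (hν : n < ν) : ∀ (k : ℕ) (f : FreeAlgebra F (Fin n)),
    (G ν k f).natDegree ≤ ν * k ^ 2
  | 0, f => by simp [G_zero]
  | k + 1, f => by
    rw [G_succ]
    have e : (k + 1) * ν + ν * k ^ 2 ≤ ν * (k + 1) ^ 2 := by nlinarith
    refine natDegree_add_le_of_degree_le ?_ (natDegree_sum_le_of_forall_le _ _ fun i _ => ?_)
    · refine natDegree_mul_le.trans ?_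
      have h1 := G_deg hν k f
      have h2 : (1 - (X ^ (k + 1)) ^ ν : F[X]).natDegree ≤ (k + 1) * ν := by
        rw [← pow_mul]
        exact (natDegree_sub_le _ _).trans (by simp)
      omega
    · refine natDegree_mul_le.trans ?_
      have h1 := G_deg hν k (der i f)
      have h2 : ((X ^ (k + 1)) ^ (i : ℕ) : F[X]).natDegree ≤ (k + 1) * ν := by
        rw [← pow_mul, natDegree_X_pow]
        exact Nat.mul_le_mul_left _ (by have := i.2; omega)
      omega

/-- The monomial of a word. -/
noncomputable def word (F : Type*) [Field F] (w : List (Fin n)) : FreeAlgebra F (Fin n) :=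
  (w.map (ι F)).prod

lemma exists_words (f : FreeAlgebra F (Fin n)) :
    ∃ c : List (Fin n) →₀ F, Finsupp.linearCombination F (word F) c = f := by
  have : f ∈ Submodule.span F (Set.range (word F (n := n))) := by
    induction f using FreeAlgebra.induction with
    | grade0 r =>
      rw [Algebra.algebraMap_eq_smul_one]
      exact Submodule.smul_mem _ _ (Submodule.subset_span ⟨[], rfl⟩)
    | grade1 j => exact Submodule.subset_span ⟨[j], by simp [word]⟩
    | mul a b ha hb =>
      have := Submodule.mul_mem_mul ha hb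
      rw [Submodule.span_mul_span] at this
      refine Submodule.span_mono ?_ this
      rintro _ ⟨_, ⟨u, rfl⟩, _, ⟨v, rfl⟩, rfl⟩
      exact ⟨u ++ v, by simp [word]⟩
    | add a b ha hb => exact add_mem ha hb
  rw [← Finsupp.range_linearCombination] at this
  exact this

lemma nonvanishing_aux {K : Type*} [Field K] [IsAlgClosed K] (j : F[X] →+* K)
    (hj : Function.Injective j) {ν : ℕ} (hν : n < ν) (φ : Formula F n) (hφ : φ.poly ≠ 0) :
    ∃ k ≤ ν * (2 * φ.size) ^ 2 + 2 * φ.size, G ν k φ.poly ≠ 0 := by
  classical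
  by_contra hcon
  push Not at hcon
  obtain ⟨V, fV, dV, mV, cV⟩ := exists_space φ
  set w := finrank F V with hw
  let b := Module.finBasis F V
  set q := j X with hq
  have hq0 : q ≠ 0 := fun h => X_ne_zero (hj (h.trans (map_zero j).symm))
  have hq1 : ∀ m, 0 < m → q ^ m ≠ 1 := by
    intro m hm h
    rw [hq, ← map_pow, ← map_one j] at h
    have := congrArg natDegree (hj h)
    simp at this
    omega
  have hexp : ∀ k (v : V), j (G ν k (v : FreeAlgebra F (Fin n))) =
      ∑ a, j (C (b.repr v a)) * j (G ν k (b a : FreeAlgebra F (Fin n))) := by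
    intro k v
    conv_lhs => rw [← b.sum_repr v]
    simp only [Submodule.coe_sum, Submodule.coe_smul, map_sum, map_smul, smul_eq_C_mul, map_mul]
  let M : Matrix (Fin w) (Fin w) K[X] := Matrix.of fun a c => (if a = c then 1 - X ^ ν else 0) +
    ∑ i : Fin n, C (j (C (b.repr ⟨der i (b a), cV i _ (b a).2⟩ c))) * X ^ (i : ℕ)
  obtain ⟨k₀, hk₀⟩ := zero_estimate q (fun k => q ^ (k + 1))
    (fun a c h => by simpa using pow_inj hq0 hq1 h) (fun k => by ring) M ν
    (fun a c => by
      simp only [M, Matrix.of_apply]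
      refine natDegree_add_le_of_degree_le ?_ (natDegree_sum_le_of_forall_le _ _ fun i _ => ?_)
      · split_ifs
        · exact (natDegree_sub_le _ _).trans (by simp)
        · simp
      · exact (natDegree_C_mul_X_pow_le _ _).trans (by have := i.2; omega))
    (fun k a => j (G ν k (b a : FreeAlgebra F (Fin n))))
    (fun k a => by
      rw [G_succ]
      have h1 : ∀ i, j (G ν k (der i (b a))) = _ := fun i => hexp k ⟨der i (b a), cV i _ (b a).2⟩
      simp only [map_add, map_mul, map_sum, map_sub, map_one, map_pow, h1, M, Matrix.of_apply,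
        eval_add, eval_finset_sum, eval_mul, eval_C, eval_pow, eval_X, add_mul,
        Finset.sum_add_distrib, apply_ite (eval (q ^ (k + 1))), ite_mul, eval_zero, zero_mul,
        Finset.sum_ite_eq, Finset.mem_univ, if_true, eval_sub, eval_one, Finset.sum_mul,
        Finset.mul_sum, ← hq]
      rw [Finset.sum_comm]
      congr 1
      exact Finset.sum_congr rfl fun _ _ => Finset.sum_congr rfl fun _ _ => by ring)
    (fun a => j (C (b.repr ⟨φ.poly, mV⟩ a)))
    (fun k hk => by
      rw [← hexp k ⟨φ.poly, mV⟩, hcon k (hk.trans (by gcongr)), map_zero])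
  obtain ⟨c, hc⟩ := exists_words φ.poly
  let e : F →+ K[X] := ((C : K →+* K[X]).comp (j.comp (C : F →+* F[X]))).toAddMonoidHom
  have hev : ∀ k (c : List (Fin n) →₀ F), ev (q ^ (k + 1)) (fun w => j (G ν k (word F w)))
      (Finsupp.mapRange.addMonoidHom e c) =
      j (G ν k (Finsupp.linearCombination F (word F) c)) := by
    intro k c
    induction c using Finsupp.induction_linear with
    | zero => simp
    | add c c' h h' => simp only [map_add, h, h']
    | single w a =>
      rw [Finsupp.mapRange.addMonoidHom_apply, Finsupp.mapRange_single, ev_single]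
      simp [e, smul_eq_C_mul]
  have hone : ∀ k, G ν (k + 1) (1 : FreeAlgebra F (Fin n)) = 
      (1 - (X ^ (k + 1)) ^ ν) * G ν k (1 : FreeAlgebra F (Fin n)) := by
    intro k
    simp [G_succ, der_one]
  have hz := free hq0 hq1 hν (fun k w => j (G ν k (word F w)))
    (fun k => by
      induction k with
      | zero => simp [word, G_zero]
      | succ k ih =>
        simp only [word, List.map_nil, List.prod_nil] at ih ⊢
        rw [hone, map_mul]
        refine mul_ne_zero ?_ ih
        rw [map_sub, map_one, map_pow, map_pow, ← hq, ← pow_mul]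
        exact sub_ne_zero.2 (hq1 _ (Nat.mul_pos (by omega) (by omega))).symm)
    (fun k => by simp [word, hone, ← hq])
    (fun k i w => by
      have : ∀ i', der i' (word F (i :: w)) = if i' = i then word F w else 0 := by
        intro i'
        simp [word, der_mul, eps_ι, der_ι]
      rw [G_succ]
      simp [this, apply_ite (G ν k), ← hq])
    k₀ (Finsupp.mapRange.addMonoidHom e c) (fun k hk => by
      rw [hev, hc, hexp k ⟨φ.poly, mV⟩]
      exact hk₀ k hk)
  apply hφ
  have : c = 0 := by
    ext w
    have h1 := DFunLike.congr_fun hz w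
    simp only [Finsupp.mapRange.addMonoidHom_apply, Finsupp.mapRange_apply, e] at h1
    simpa [map_eq_zero_iff j hj] using h1
  rw [← hc, this, map_zero]

theorem nonvanishing {ν : ℕ} (hν : n < ν) (φ : Formula F n) (hφ : φ.poly ≠ 0) :
    ∃ k ≤ ν * (2 * φ.size) ^ 2 + 2 * φ.size, G ν k φ.poly ≠ 0 :=
  nonvanishing_aux ((algebraMap (FractionRing F[X]) (AlgebraicClosure (FractionRing F[X]))).comp
    (algebraMap F[X] (FractionRing F[X])))
    ((algebraMap (FractionRing F[X]) (AlgebraicClosure (FractionRing F[X]))).injective.comp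
      (IsFractionRing.injective F[X] (FractionRing F[X]))) hν φ hφ

end Vale.Agent.P314
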