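import Mathlib

/-! Noncommutative formulas, matrix hitting sets and their binary encodings. -/

namespace Vale.Agent.P314

/-- Noncommutative formulas over `F` in the variables `x_i`, `i : Fin n`. -/
inductive Formula (F : Type*) (n : ℕ)
  | var (i : Fin n)
  | const (a : F)
  | add (φ ψ : Formula F n)
  | mul (φ ψ : Formula F n)

/-- The size of a formula: the number of vertices of its tree, leaves included. -/
def Formula.size {F : Type*} {n : ℕ} : Formula F n → ℕ
  | .var _ => 1
  | .const _ => 1
  | .add φ ψ => φ.size + ψ.size + 1
  | .mul φ ψ => φ.size + ψ.size + 1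

/-- The element of the free associative algebra computed by a formula. -/
noncomputable def Formula.poly {F : Type*} [Field F] {n : ℕ} :
    Formula F n → FreeAlgebra F (Fin n)
  | .var i => FreeAlgebra.ι F i
  | .const a => algebraMap F (FreeAlgebra F (Fin n)) a
  | .add φ ψ => φ.poly + ψ.poly
  | .mul φ ψ => φ.poly * ψ.poly

/-- A dimension `d` and an `n`-tuple of `d × d` matrices over `F`. -/
abbrev MatTuple (F : Type*) (n : ℕ) := Σ d : ℕ, Fin n → Matrix (Fin d) (Fin d) F

/-- `H` hits every nonzero polynomial computed by a formula of size at most `s`. -/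
def IsHittingSet {F : Type*} [Field F] {n : ℕ} (s : ℕ) (H : List (MatTuple F n)) : Prop :=
  ∀ φ : Formula F n, φ.size ≤ s → φ.poly ≠ 0 → ∃ T ∈ H, FreeAlgebra.lift F T.2 φ.poly ≠ 0

/-- The input `(n, s)` in unary. -/
def encodeInput (p : ℕ × ℕ) : List Bool :=
  List.replicate p.1 true ++ false :: List.replicate p.2 true

/-- Self-delimiting code of a field element with binary code `enc a`. -/
def encodeElem {F : Type*} (enc : F → List Bool) (a : F) : List Bool :=
  ((enc a).flatMap fun b => [true, b]) ++ [false]

/-- The dimension in unary, then all entries of all matrices, row by row. -/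
def encodeTuple {F : Type*} {n : ℕ} (enc : F → List Bool) (T : MatTuple F n) : List Bool :=
  List.replicate T.1 true ++ false ::
    (List.finRange n).flatMap fun i => (List.finRange T.1).flatMap fun r =>
      (List.finRange T.1).flatMap fun c => encodeElem enc (T.2 i r c)

/-- A list of tuples: each tuple is announced by `true`, the end by `false`. -/
def encodeSet {F : Type*} {n : ℕ} (enc : F → List Bool) (H : List (MatTuple F n)) : List Bool :=
  (H.flatMap fun T => true :: encodeTuple enc T) ++ [false]

end Vale.Agent.P314
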