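import Vale.Agent.P314.Alg

/-! The explicit `0/1` matrices and the hitting property. -/

namespace Vale.Agent.P314

open Polynomial FreeAlgebra

variable {F : Type*} [Field F] {n : ℕ}

/-- The condition for an entry to be `1`. -/
def Entry (ν N i k a j b : ℕ) : Prop := j < k ∧ ∃ m < N, a = b + (j + 1) * (i + ν * m)

open Classical in
/-- The hitting tuple. -/
noncomputable def hitT (F : Type*) [Field F] (n ν N : ℕ) (i : Fin n) :
    Matrix (Fin (N * N)) (Fin (N * N)) F :=
  Matrix.of fun r c => if Entry ν N i (r / N) (r % N) (c / N) (c % N) then 1 else 0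

noncomputable def geo (F : Type*) [Field F] (ν N i j : ℕ) : F[X] :=
  ∑ m ∈ Finset.range N, X ^ ((j + 1) * (i + ν * m))

noncomputable def polyT (F : Type*) [Field F] (n ν N : ℕ) (i : Fin n) :
    Matrix (Fin N) (Fin N) F[X] :=
  Matrix.of fun k j => if (j : ℕ) < k then geo F ν N i j else 0

def jor (F : Type*) [Field F] (N : ℕ) : Matrix (Fin N) (Fin N) F :=
  Matrix.of fun a b => if (a : ℕ) = b + 1 then 1 else 0

lemma jor_pow (N e : ℕ) : ∀ a b : Fin N, (jor F N ^ e) a b = if (a : ℕ) = b + e then 1 else 0 := by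
  induction e with
  | zero => intro a b; simp [Matrix.one_apply, Fin.ext_iff]
  | succ e ih =>
    intro a b
    rw [pow_succ', Matrix.mul_apply]
    simp only [ih]
    simp only [jor, Matrix.of_apply, ite_mul, one_mul, zero_mul]
    split_ifs with h
    · rw [Finset.sum_eq_single ⟨b + e, by have := a.2; omega⟩]
      · simp [h, add_assoc]
      · intro c _ hc
        have : (c : ℕ) ≠ b + e := fun h' => hc (Fin.ext h')
        simp [this]
      · simp
    · refine Finset.sum_eq_zero fun c _ => ?_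
      split_ifs with h1 h2
      · omega
      · rfl
      · rfl

lemma jor_nil (N : ℕ) : jor F N ^ N = 0 := by
  ext a b
  have := a.2
  rw [jor_pow, if_neg (by omega), Matrix.zero_apply]

lemma jor_inj {N : ℕ} (p : F[X]) (hp : p.natDegree < N) (h : aeval (jor F N) p = 0) : p = 0 := by
  ext a
  by_cases ha : a < N
  · have h1 := congrFun (congrFun h ⟨a, ha⟩) ⟨0, by omega⟩
    rw [aeval_eq_sum_range' hp, Matrix.sum_apply] at h1
    simpa [jor_pow, ha] using h1
  · rw [coeff_eq_zero_of_natDegree_lt (by omega), coeff_zero]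

noncomputable def Psi (F : Type*) [Field F] (N : ℕ) :
    Matrix (Fin N) (Fin N) F[X] →ₐ[F] Matrix (Fin (N * N)) (Fin (N * N)) F :=
  ((Matrix.compAlgEquiv (Fin N) (Fin N) F F).trans
    (Matrix.reindexAlgEquiv F F finProdFinEquiv)).toAlgHom.comp (aeval (jor F N)).mapMatrix

lemma Psi_apply (N : ℕ) (A : Matrix (Fin N) (Fin N) F[X]) (r c : Fin (N * N)) :
    Psi F N A r c = aeval (jor F N) (A r.divNat c.divNat) r.modNat c.modNat := rfl

lemma Psi_polyT {ν : ℕ} (hν : 0 < ν) (N : ℕ) (i : Fin n) :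
    Psi F N (polyT F n ν N i) = hitT F n ν N i := by
  ext r c
  rw [Psi_apply]
  simp only [polyT, hitT, Matrix.of_apply, Fin.coe_divNat, Entry]
  by_cases h : (c : ℕ) / N < r / N
  · simp only [h, if_true, true_and, geo, map_sum, map_pow, aeval_X, Matrix.sum_apply, jor_pow,
      Fin.coe_modNat]
    split_ifs with h'
    · obtain ⟨m, hm, e⟩ := h'
      rw [Finset.sum_eq_single m]
      · exact if_pos e
      · intro m' _ hne
        refine if_neg ?_
        intro e'
        apply hne
        have h1 := Nat.add_left_cancel (e'.symm.trans e)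
        have h2 := Nat.eq_of_mul_eq_mul_left (Nat.succ_pos _) h1
        exact Nat.eq_of_mul_eq_mul_left hν (Nat.add_left_cancel h2)
      · intro h1
        exact absurd (Finset.mem_range.2 hm) h1
    · exact Finset.sum_eq_zero fun m hm => if_neg fun e => h' ⟨m, Finset.mem_range.1 hm, e⟩
  · simp [h]

lemma lift_Psi {N : ℕ} (T : Fin n → Matrix (Fin N) (Fin N) F[X]) (f : FreeAlgebra F (Fin n)) :
    FreeAlgebra.lift F (fun i => Psi F N (T i)) f = Psi F N (FreeAlgebra.lift F T f) := by
  have : FreeAlgebra.lift F (fun i => Psi F N (T i)) =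
      (Psi F N).comp (FreeAlgebra.lift F T) := by
    ext i
    simp
  rw [this]
  rfl

/-- Row sums. -/
noncomputable def rowSum (ν N : ℕ) (k : Fin N) (f : FreeAlgebra F (Fin n)) : F[X] :=
  ∑ j, FreeAlgebra.lift F (polyT F n ν N) f k j

lemma rowSum_eq (ν N : ℕ) (k : Fin N) (f : FreeAlgebra F (Fin n)) : rowSum ν N k f = C (eps f) +
    ∑ i : Fin n, ∑ j : Fin N, if (j : ℕ) < k then geo F ν N i j * rowSum ν N j (der i f) else 0 := by
  conv_lhs => rw [rowSum, decomp f]
  simp only [map_add, map_sum, map_mul, lift_ι_apply, AlgHom.commutes, Matrix.add_apply,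
    Matrix.sum_apply, Matrix.mul_apply, Finset.sum_add_distrib, Matrix.algebraMap_matrix_apply,
    Finset.sum_ite_eq, Finset.mem_univ, if_true]
  congr 1
  rw [Finset.sum_comm]
  refine Finset.sum_congr rfl fun i _ => ?_
  rw [Finset.sum_comm]
  refine Finset.sum_congr rfl fun j _ => ?_
  rw [← Finset.mul_sum]
  simp only [polyT, Matrix.of_apply, ite_mul, zero_mul, rowSum]

lemma rowSum_succ (ν N k : ℕ) (hk : k + 1 < N) (f : FreeAlgebra F (Fin n)) :
    rowSum ν N ⟨k + 1, hk⟩ f = rowSum ν N ⟨k, by omega⟩ f +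
      ∑ i : Fin n, geo F ν N i k * rowSum ν N ⟨k, by omega⟩ (der i f) := by
  rw [rowSum_eq, rowSum_eq ν N ⟨k, _⟩ f, add_assoc, ← Finset.sum_add_distrib]
  congr 1
  refine Finset.sum_congr rfl fun i _ => ?_
  have : ∀ j : Fin N, (if (j : ℕ) < k + 1 then geo F ν N i j * rowSum ν N j (der i f) else 0) =
      (if (j : ℕ) < k then geo F ν N i j * rowSum ν N j (der i f) else 0) +
      if j = ⟨k, by omega⟩ then geo F ν N i j * rowSum ν N j (der i f) else 0 := by
    intro j
    rcases lt_trichotomy (j : ℕ) k with h | h | h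
    · rw [if_pos (by omega), if_pos h, if_neg (fun h' => by rw [h'] at h; simp at h), add_zero]
    · rw [if_pos (by omega), if_neg (by omega), if_pos (Fin.ext h), zero_add]
    · rw [if_neg (by omega), if_neg (by omega), if_neg (fun h' => by rw [h'] at h; simp at h),
        add_zero]
  simp only [this, Finset.sum_add_distrib, Finset.sum_ite_eq', Finset.mem_univ, if_true]

lemma geo_mul (ν N i k : ℕ) : (1 - (X ^ (k + 1)) ^ ν) * geo F ν N i k =
    (X ^ (k + 1)) ^ i * (1 - ((X ^ (k + 1)) ^ ν) ^ N) := by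
  rw [← mul_neg_geom_sum _ N, geo, mul_left_comm]
  congr 1
  rw [Finset.mul_sum]
  exact Finset.sum_congr rfl fun m _ => by ring

lemma step_dvd {R : Type*} [CommRing R] (z D P E h g : R) (x r hi gi : Fin n → R) (hE : z ∣ E)
    (hr : ∀ i, D * r i = x i * (1 - E)) (h1 : z ∣ P * h - g) (h2 : ∀ i, z ∣ P * hi i - gi i) :
    z ∣ P * D * (h + ∑ i, r i * hi i) - (D * g + ∑ i, x i * gi i) := by
  have e : P * D * (h + ∑ i, r i * hi i) - (D * g + ∑ i, x i * gi i) =
      D * (P * h - g) + ∑ i, (x i * (P * hi i - gi i) - E * (x i * P * hi i)) := by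
    rw [mul_add, Finset.mul_sum, add_sub_add_comm, ← Finset.sum_sub_distrib]
    congr 1
    · ring
    · refine Finset.sum_congr rfl fun i _ => ?_
      linear_combination (P * hi i) * hr i
  rw [e]
  exact dvd_add (h1.mul_left _) (Finset.dvd_sum fun i _ =>
    dvd_sub ((h2 _).mul_left _) (hE.mul_right _))

lemma rowSum_G {ν : ℕ} (hν : 0 < ν) (N : ℕ) : ∀ (k : ℕ) (hk : k < N) (f : FreeAlgebra F (Fin n)),
    X ^ N ∣ (∏ j ∈ Finset.range k, (1 - (X ^ (j + 1)) ^ ν : F[X])) * rowSum ν N ⟨k, hk⟩ f - G ν k f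
  | 0, hk, f => by
    rw [rowSum_eq]
    simp [G_zero]
  | k + 1, hk, f => by
    have ih := rowSum_G hν N k (by omega)
    rw [rowSum_succ, G_succ, Finset.prod_range_succ]
    exact step_dvd _ _ _ _ _ _ _ _ _ _
      (pow_dvd_pow_of_dvd (dvd_pow (dvd_pow_self _ (by omega)) hν.ne') _)
      (fun i => geo_mul ν N i k) (ih f) (fun i => ih _)

theorem hitT_hits {ν N s : ℕ} (hν : n < ν) (h1 : ν * (2 * s) ^ 2 + 2 * s < N)
    (h2 : ν * (ν * (2 * s) ^ 2 + 2 * s) ^ 2 < N) (φ : Formula F n) (hs : φ.size ≤ s)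
    (hφ : φ.poly ≠ 0) : FreeAlgebra.lift F (hitT F n ν N) φ.poly ≠ 0 := by
  intro h
  obtain ⟨k, hk, hG⟩ := nonvanishing hν φ hφ
  have hk' : k ≤ ν * (2 * s) ^ 2 + 2 * s := hk.trans (by gcongr)
  have hkN : k < N := by omega
  have e : hitT F n ν N = fun i => Psi F N (polyT F n ν N i) :=
    funext fun i => (Psi_polyT (by omega) N i).symm
  rw [e, lift_Psi] at h
  have h3 : ∀ j, aeval (jor F N) (FreeAlgebra.lift F (polyT F n ν N) φ.poly ⟨k, hkN⟩ j) = 0 := by
    intro j
    ext a b
    have := congrFun (congrFun h (finProdFinEquiv (⟨k, hkN⟩, a))) (finProdFinEquiv (j, b))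
    rw [Psi_apply] at this
    have d1 : ∀ x y : Fin N, (finProdFinEquiv (x, y)).divNat = x := fun x y =>
      congrArg Prod.fst (finProdFinEquiv.left_inv (x, y))
    have d2 : ∀ x y : Fin N, (finProdFinEquiv (x, y)).modNat = y := fun x y =>
      congrArg Prod.snd (finProdFinEquiv.left_inv (x, y))
    rw [d1, d1, d2, d2] at this
    exact this
  have h4 : aeval (jor F N) (rowSum ν N ⟨k, hkN⟩ φ.poly) = 0 := by
    rw [rowSum, map_sum]
    exact Finset.sum_eq_zero fun j _ => h3 j
  obtain ⟨p, hp⟩ := rowSum_G (by omega : 0 < ν) N k hkN φ.poly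
  have h5 := congrArg (aeval (jor F N)) hp
  rw [map_sub, map_mul, h4, map_mul, map_pow, aeval_X, jor_nil, mul_zero, zero_mul, zero_sub,
    neg_eq_zero] at h5
  refine hG (jor_inj _ ?_ h5)
  exact ((G_deg hν k _).trans (by gcongr)).trans_lt h2

end Vale.Agent.P314
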