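import Vale.Agent.P314.Mat
import Vale.Agent.TM.Ex

/-! The program printing the hitting tuple. -/

namespace Vale.Agent.P314

open Vale.Agent.TM Function

lemma len_rep (a b : Ex) (d v) :
    ((Ex.rep a b).eval d v).length = (a.eval d v).length * (b.eval d v).length := by
  simp [Ex.eval, List.length_flatMap]

lemma len_app (a b : Ex) (d v) :
    ((Ex.app a b).eval d v).length = (a.eval d v).length + (b.eval d v).length := by
  simp [Ex.eval]

lemma len_sub (a b : Ex) (d v) :
    ((Ex.sub a b).eval d v).length = (a.eval d v).length - (b.eval d v).length := by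
  simp [Ex.eval]

lemma len_var (i d v) : ((Ex.var i).eval d v).length = v i := by simp [Ex.eval]

def one : Ex := .lit [true]

lemma len_one (d v) : (one.eval d v).length = 1 := rfl

def ifz (c a b : Ex) : Ex := .app (.rep (.sub one c) a) (.rep (.sub one (.sub one c)) b)

lemma eval_ifz (c a b : Ex) (d v) : (ifz c a b).eval d v =
    if (c.eval d v).length = 0 then a.eval d v else b.eval d v := by
  rcases h : (c.eval d v).length with _ | m <;> simp [ifz, Ex.eval, one, h]

def eE : Ex := .app (.app (.app (.var 0) (.var 1)) one) (.app (.app (.var 0) (.var 1)) one)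

def eN : Ex := .rep eE (.rep eE (.rep eE (.rep eE (.rep eE (.rep eE eE)))))

/-- The side length. -/
def side (n s : ℕ) : ℕ := (2 * (n + s + 1)) ^ 7

lemma len_eN (d v) : (eN.eval d v).length = side (v 0) (v 1) := by
  simp only [eN, eE, len_rep, len_app, len_var, len_one, side]
  ring

def eqz (a b : Ex) : Ex := .app (.sub a b) (.sub b a)

def cnt : Ex := .each eN (.sub one (eqz (.var 4) (.app (.var 6)
  (.rep (.app (.var 5) one) (.app (.var 2) (.rep (.app (.var 0) one) (.var 7)))))))

lemma len_cnt (v : ℕ → ℕ) : (cnt.eval 7 v).length = 0 ↔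
    ¬ ∃ m < side (v 0) (v 1), v 4 = v 6 + (v 5 + 1) * (v 2 + (v 0 + 1) * m) := by
  rw [cnt, Ex.eval, List.length_eq_zero_iff, List.flatMap_eq_nil_iff, len_eN]
  simp only [← List.length_eq_zero_iff, eqz, len_rep, len_app, len_var, len_one, len_sub,
    List.mem_range, not_exists, not_and]
  refine forall_congr' fun m => imp_congr_right fun _ => ?_
  simp only [update_self, ne_eq, Nat.reduceEqDiff, not_false_eq_true, update_of_ne,
    OfNat.zero_ne_ofNat]
  omega

def ent (c0 c1 : List Bool) : Ex := ifz (.rep (.sub (.var 3) (.var 5)) cnt) (.lit c0) (.lit c1)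

open Classical in
lemma eval_ent (c0 c1 : List Bool) (v : ℕ → ℕ) : (ent c0 c1).eval 7 v =
    if Entry (v 0 + 1) (side (v 0) (v 1)) (v 2) (v 3) (v 4) (v 5) (v 6) then c1 else c0 := by
  rw [ent, eval_ifz, len_rep, len_sub, len_var, len_var]
  simp only [Nat.mul_eq_zero, len_cnt, Entry, Ex.eval]
  by_cases h1 : v 5 < v 3
  · have : ¬ (v 3 - v 5 = 0) := by omega
    simp only [this, h1, false_or, true_and, ite_not]
  · have : v 3 - v 5 = 0 := by omega
    simp only [this, h1, true_or, false_and, if_true, if_false]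

def prog (c0 c1 : List Bool) : Ex := .app (.app (.lit [true]) (.app (.sub (.rep eN eN) (.lit []))
  (.app (.lit [false]) (.each (.var 0) (.each eN (.each eN (.each eN (.each eN (ent c0 c1)))))))))
  (.lit [false])

lemma flatMap_range_mul {α : Type} (M : ℕ) (h : ℕ → ℕ → List α) : ∀ N : ℕ,
    (List.range (N * M)).flatMap (fun r => h (r / M) (r % M)) =
      (List.range N).flatMap fun k => (List.range M).flatMap fun a => h k a
  | 0 => by simp
  | N + 1 => by
    rw [Nat.succ_mul, List.range_add, List.flatMap_append, flatMap_range_mul M h N,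
      List.range_succ, List.flatMap_append, List.flatMap_map]
    simp only [List.flatMap_cons, List.flatMap_nil, List.append_nil]
    congr 1
    refine List.flatMap_congr fun a ha => ?_
    have ha' := List.mem_range.1 ha
    have e1 : (N * M + a) / M = N := by
      rw [Nat.add_comm, Nat.add_mul_div_right _ _ (by omega), Nat.div_eq_of_lt ha', Nat.zero_add]
    have e2 : (N * M + a) % M = a := by
      rw [Nat.add_comm, Nat.add_mul_mod_self_right, Nat.mod_eq_of_lt ha']
    rw [e1, e2]

lemma flatMap_finRange {α : Type} (d : ℕ) (h : ℕ → List α) :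
    (List.finRange d).flatMap (fun r : Fin d => h r.1) = (List.range d).flatMap h := by
  rw [← List.map_coe_finRange_eq_range, List.flatMap_map]

/-- The hitting set: a single tuple. -/
noncomputable def hitSet (F : Type*) [Field F] (n s : ℕ) : List (MatTuple F n) :=
  [⟨side n s * side n s, hitT F n (n + 1) (side n s)⟩]

theorem hitSet_hits (F : Type*) [Field F] (n s : ℕ) : IsHittingSet s (hitSet F n s) := by
  intro φ hs hφ
  refine ⟨_, List.mem_singleton.2 rfl, ?_⟩
  have hE : 2 ≤ 2 * (n + s + 1) := by omega
  have h1 : 2 * (n + 1) ≤ 2 * (n + s + 1) := by omega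
  have h2 : 2 * s ≤ 2 * (n + s + 1) := by omega
  have h3 : (n + 1) * (2 * s) ^ 2 + 2 * s ≤ (2 * (n + s + 1)) ^ 3 := by
    generalize 2 * (n + s + 1) = E at *
    have h4 : (2 * s) ^ 2 ≤ E ^ 2 := by gcongr
    have h5 : 2 * (n + 1) * (2 * s) ^ 2 ≤ E * E ^ 2 := by gcongr
    have h6 : 2 * 2 * E ≤ E * E * E := by gcongr
    nlinarith
  have h4 : (n + 1) * ((n + 1) * (2 * s) ^ 2 + 2 * s) ^ 2 < side n s := by
    calc _ ≤ (n + 1) * ((2 * (n + s + 1)) ^ 3) ^ 2 := by gcongr
      _ < (2 * (n + s + 1)) * ((2 * (n + s + 1)) ^ 3) ^ 2 := by gcongr; omega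
      _ = side n s := by rw [side]; ring
  refine hitT_hits (Nat.lt_succ_self n) ?_ h4 φ hs hφ
  exact h3.trans_lt (Nat.pow_lt_pow_right (by omega) (by omega))

theorem prog_eval {F : Type*} [Field F] (enc : F → List Bool) (p : ℕ × ℕ) :
    encodeSet enc (hitSet F p.1 p.2) =
      (prog (encodeElem enc 0) (encodeElem enc 1)).eval 2 (env2 p) := by
  classical
  obtain ⟨n, s⟩ := p
  have e0 : env2 (n, s) 0 = n := rfl
  have e1 : env2 (n, s) 1 = s := rfl
  have hl := len_rep eN eN 2 (env2 (n, s))
  simp only [Ex.eval, len_eN, e0, e1] at hl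
  simp only [prog, Ex.eval, hl, len_eN, Nat.reduceAdd, eval_ent, update_self, ne_eq, Nat.reduceEqDiff,
    not_false_eq_true, update_of_ne, OfNat.zero_ne_ofNat, OfNat.one_ne_ofNat, e0, e1,
    List.length_replicate, List.length_nil, Nat.sub_zero, encodeSet, hitSet, encodeTuple,
    List.flatMap_cons, List.flatMap_nil, List.append_nil, List.singleton_append, hitT,
    Matrix.of_apply, apply_ite (encodeElem enc)]
  congr 4
  generalize side n s = N
  generalize encodeElem enc 1 = c1
  generalize encodeElem enc 0 = c0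
  rw [flatMap_finRange n (fun i => (List.finRange (N * N)).flatMap fun r : Fin (N * N) =>
    (List.finRange (N * N)).flatMap fun c : Fin (N * N) =>
      if Entry (n + 1) N i (r.1 / N) (r.1 % N) (c.1 / N) (c.1 % N) then c1 else c0)]
  refine List.flatMap_congr fun i _ => ?_
  rw [flatMap_finRange (N * N) (fun r => (List.finRange (N * N)).flatMap fun c : Fin (N * N) =>
      if Entry (n + 1) N i (r / N) (r % N) (c.1 / N) (c.1 % N) then c1 else c0),
    flatMap_range_mul N (fun k a => (List.finRange (N * N)).flatMap fun c : Fin (N * N) =>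
      if Entry (n + 1) N i k a (c.1 / N) (c.1 % N) then c1 else c0)]
  refine List.flatMap_congr fun k _ => List.flatMap_congr fun a _ => ?_
  rw [flatMap_finRange (N * N) (fun c =>
      if Entry (n + 1) N i k a (c / N) (c % N) then c1 else c0),
    flatMap_range_mul N (fun j b => if Entry (n + 1) N i k a j b then c1 else c0)]

end Vale.Agent.P314
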